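import Mathlib.Analysis.InnerProductSpace.PiL2
import Mathlib.MeasureTheory.Measure.Support
import Mathlib.MeasureTheory.Integral.Bochner.Set
import Mathlib.MeasureTheory.Function.LpSeminorm.Basic
import Mathlib.MeasureTheory.Measure.Haar.InnerProductSpace
import Mathlib.Topology.UniformSpace.LocallyUniformConvergence

/-!
The David-Semmes problem: definitions. They are written for a normed space `V` and used for
`V = R^d` with the Euclidean norm and the Borel sets.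
-/

open MeasureTheory Metric Set Filter
open scoped ENNReal NNReal

namespace Vale.Agent.N120B

/-- Euclidean space `R^d`. -/
abbrev E (d : ℕ) := EuclideanSpace ℝ (Fin d)

variable {V : Type} [NormedAddCommGroup V]

/-- `A` is the image of the ball `B(0, r)` of `W` under an `M`-Lipschitz map. -/
def LipImage (W : Type) [NormedAddCommGroup W] (M : ℝ≥0) (r : ℝ) (A : Set V) : Prop :=
  ∃ g : ball (0 : W) r → V, LipschitzWith M g ∧ range g = A

/-- The kernel `K_n(z) = z / |z|^(n+1)`. -/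
noncomputable def K [NormedSpace ℝ V] (n : ℕ) (z : V) : V := (1 / ‖z‖ ^ (n + 1)) • z

variable [MeasurableSpace V]

/-- `n`-Ahlfors-David regular with constant `C`. -/
def RegularWith (n : ℕ) (C : ℝ) (μ : Measure V) : Prop :=
  1 ≤ C ∧ ∀ x ∈ μ.support, ∀ r : ℝ, 0 < r → ENNReal.ofReal r ≤ ediam μ.support →
    r ^ n / C ≤ μ.real (ball x r) ∧ μ.real (ball x r) ≤ C * r ^ n

/-- `n`-Ahlfors-David regular. -/
def Regular (n : ℕ) (μ : Measure V) : Prop := ∃ C : ℝ, RegularWith n C μ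

/-- Uniformly `n`-rectifiable. -/
def UR (n : ℕ) (μ : Measure V) : Prop :=
  ∃ θ : ℝ, 0 < θ ∧ ∃ M : ℝ≥0, ∀ x ∈ μ.support, ∀ r : ℝ, 0 < r →
    ENNReal.ofReal r ≤ ediam μ.support →
    ∃ A : Set V, LipImage (E n) M r A ∧ θ * r ^ n ≤ μ.real (ball x r ∩ A)

/-- `M`-Lipschitz images of balls of `R^n` cover all but `η r^n` of every ball `B(x, r)`. -/
def Covered (n : ℕ) (M : ℝ≥0) (η : ℝ) (μ : Measure V) : Prop :=
  ∀ x ∈ μ.support, ∀ r : ℝ, 0 < r → ENNReal.ofReal r ≤ ediam μ.support →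
    ∃ A : Set V, LipImage (E n) M r A ∧ μ.real (ball x r \ A) ≤ η * r ^ n

variable [NormedSpace ℝ V]

/-- The truncated Riesz transform `R_{μ,ε} f (x)`. -/
noncomputable def R (n : ℕ) (μ : Measure V) (ε : ℝ) (f : V → ℝ) (x : V) : V :=
  ∫ y in (closedBall x ε)ᶜ, f y • K n (x - y) ∂μ

/-- The integrals defining `R_{μ,ε} f (x)` converge for all `f ∈ L^2(μ)`, `ε > 0` and all `x`. -/
def Converges (n : ℕ) (μ : Measure V) : Prop :=
  ∀ f : V → ℝ, MemLp f 2 μ → ∀ ε : ℝ, 0 < ε → ∀ x : V,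
    IntegrableOn (fun y => f y • K n (x - y)) (closedBall x ε)ᶜ μ

/-- The truncations `R_{μ,ε}` are uniformly bounded from `L^2(μ)` to `L^2(μ; V)`. -/
def Bounded (n : ℕ) (μ : Measure V) : Prop :=
  ∃ C : ℝ≥0, ∀ f : V → ℝ, MemLp f 2 μ → ∀ ε : ℝ, 0 < ε →
    eLpNorm (R n μ ε f) 2 μ ≤ C * eLpNorm f 2 μ

/-- The field `∫_S K_n(y - s) dμ(s)` of the piece `S` at the point `y` (used for compact `S` and
`y ∉ S` only, where the integrand is bounded). -/
noncomputable def field (n : ℕ) (μ : Measure V) (S : Set V) (y : V) : V :=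
  ∫ s in S, K n (y - s) ∂μ

/-- For every ball `B = B(x, r)` centred on `supp μ` and every compact `S ⊆ B`, the field of `S`
exceeds `L` on a part of `B \ S` of measure at most `a r^n`. -/
def OffTest (n : ℕ) (a L : ℝ) (μ : Measure V) : Prop :=
  ∀ x ∈ μ.support, ∀ r : ℝ, 0 < r → ∀ S : Set V, IsCompact S → S ⊆ ball x r →
    μ.real {y ∈ ball x r \ S | L < ‖field n μ S y‖} ≤ a * r ^ n

/-- The force between two disjoint compact pieces of a ball `B(x, r)` centred on `supp μ` is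
`O(r^n)`. -/
def Form (n : ℕ) (μ : Measure V) : Prop :=
  ∃ C : ℝ, ∀ x ∈ μ.support, ∀ r : ℝ, 0 < r → ∀ A S : Set V, IsCompact A → IsCompact S →
    Disjoint A S → A ∪ S ⊆ ball x r → ‖∫ y in A, field n μ S y ∂μ‖ ≤ C * r ^ n

/-- Weak type `(p, p)` for some `p > 0`, tested on compact sets `S` and off `S`. -/
def WeakOff (n : ℕ) (μ : Measure V) : Prop :=
  ∃ p C : ℝ, 0 < p ∧ ∀ S : Set V, IsCompact S → ∀ t : ℝ, 0 < t →
    μ {y | y ∉ S ∧ t < ‖field n μ S y‖} ≤ ENNReal.ofReal (C / t ^ p) * μ S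

/-- For some `1 ≤ p ≤ ∞` an operator `T`, bounded from `L^p(μ)` to `L^p(μ; V)`, has the kernel
`K_n` off the support. -/
def Operator (n : ℕ) (μ : Measure V) : Prop :=
  ∃ (p : ℝ≥0∞) (C : ℝ≥0) (T : (V → ℝ) → V → V), 1 ≤ p ∧ ∀ f : V → ℝ, MemLp f p μ →
    eLpNorm (T f) p μ ≤ C * eLpNorm f p μ ∧
    ∀ S : Set V, IsCompact S → (∀ y, y ∉ S → f y = 0) →
      ∀ᵐ x ∂μ, x ∉ S → T f x = ∫ y in S, f y • K n (x - y) ∂μ

/-- For some `0 < p ≤ ∞`, bounded measurable kernels `k_j(x, y)`, tending to `K_n(x - y)` locally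
uniformly in `y ≠ x`, give operators uniformly bounded in `L^p(μ)` on indicators of compact
sets. -/
def Approx (n : ℕ) (μ : Measure V) : Prop :=
  ∃ (p : ℝ≥0∞) (C : ℝ≥0) (k : ℕ → V × V → V), p ≠ 0 ∧
    (∀ j, Measurable (k j) ∧ ∃ B : ℝ, ∀ z, ‖k j z‖ ≤ B) ∧
    (∀ x, TendstoLocallyUniformlyOn (fun j y => k j (x, y)) (fun y => K n (x - y)) atTop {x}ᶜ) ∧
    ∀ (j : ℕ) (S : Set V), IsCompact S →
      eLpNorm (fun x => ∫ y in S, k j (x, y) ∂μ) p μ ≤ C * eLpNorm (S.indicator fun _ => (1 : ℝ)) p μ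

end Vale.Agent.N120B
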