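import Vale.Agent.N120B.Main

/-!
The Riesz transform as a form on disjoint compact pieces.
-/

set_option linter.all false

open MeasureTheory Metric Set Filter Topology
open scoped ENNReal NNReal

namespace Vale.Agent.N120B

open Vale.Agent.P120

variable {d n : ℕ}

theorem exists_sep {A S : Set (E d)} (hA : IsCompact A) (hS : IsCompact S) (h : Disjoint A S) :
    ∃ e : ℝ, 0 < e ∧ ∀ y ∈ A, ∀ s ∈ S, e < ‖y - s‖ := by
  obtain ⟨e, he, H⟩ := Metric.exists_pos_forall_lt_edist hA hS.isClosed h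
  refine ⟨e, he, fun y hy s hs => ?_⟩
  have h1 := H y hy s hs
  rw [edist_nndist, ENNReal.coe_lt_coe] at h1
  rw [← dist_eq_norm]
  exact h1

theorem field_eq_tK {μ : Measure (E d)} {S : Set (E d)} (hS : MeasurableSet S) {e : ℝ} {y : E d}
    (h : ∀ s ∈ S, e < ‖y - s‖) : field n μ S y = ∫ s in S, tK n e (y - s) ∂μ := by
  refine setIntegral_congr_fun hS fun s hs => ?_
  show K n (y - s) = tK n e (y - s)
  rw [K_eq, tK, indicator_of_mem (show y - s ∈ {z : Eu d | e < ‖z‖} from h s hs)]

theorem intOn_field {μ : Measure (E d)} [IsLocallyFiniteMeasure μ] {A S : Set (E d)}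
    (hA : IsCompact A) (hS : IsCompact S) (h : Disjoint A S) :
    IntegrableOn (field n μ S) A μ := by
  obtain ⟨e, he, H⟩ := exists_sep hA hS h
  refine Integrable.mono' (g := fun _ => (e ^ n)⁻¹ * μ.real S)
    (integrableOn_const hA.measure_lt_top.ne) (measurable_field μ S).aestronglyMeasurable ?_
  filter_upwards [ae_restrict_mem hA.measurableSet] with y hy
  rw [field_eq_tK hS.measurableSet (H y hy)]
  exact norm_setIntegral_le_of_norm_le_const hS.measure_lt_top fun s _ => norm_tK_le n e he _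

theorem level_le {μ : Measure (E d)} [IsLocallyFiniteMeasure μ] {x : E d} {r b t : ℝ}
    (hb : 0 ≤ b) (ht : 0 < t) {S : Set (E d)} (hS : IsCompact S)
    (h : ∀ A : Set (E d), IsCompact A → Disjoint A S → A ⊆ ball x r →
      ‖∫ y in A, field n μ S y ∂μ‖ ≤ b) (φ : E d →L[ℝ] ℝ) (hφ : ∀ v, φ v ≤ ‖v‖) :
    μ {y ∈ ball x r \ S | t < φ (field n μ S y)} ≤ ENNReal.ofReal (b / t) := by
  by_contra hcon
  have hm : MeasurableSet {y ∈ ball x r \ S | t < φ (field n μ S y)} :=
    (measurableSet_ball.diff hS.measurableSet).inter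
      (measurableSet_lt measurable_const (φ.measurable.comp (measurable_field μ S)))
  obtain ⟨A, hA1, hA2, hA3⟩ := hm.exists_lt_isCompact_of_ne_top
    (ne_top_of_le_ne_top (measure_ball_lt_top (x := x) (r := r)).ne
      (measure_mono fun y hy => hy.1.1)) (not_le.1 hcon)
  have hd : Disjoint A S := Set.disjoint_left.2 fun y hy => (hA1 hy).1.2
  have hint := intOn_field (n := n) (μ := μ) hA2 hS hd
  have h1 : t * μ.real A ≤ ∫ y in A, φ (field n μ S y) ∂μ :=
    setIntegral_ge_of_const_le_real hA2.measurableSet hA2.measure_lt_top.ne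
      (fun y hy => (hA1 hy).2.le) (φ.integrable_comp hint)
  rw [φ.integral_comp_comm hint] at h1
  have h2 := h1.trans ((hφ _).trans (h A hA2 hd fun y hy => (hA1 hy).1.1))
  have h3 : μ A ≤ ENNReal.ofReal (b / t) := by
    rw [ENNReal.le_ofReal_iff_toReal_le hA2.measure_lt_top.ne (by positivity), le_div_iff₀ ht,
      mul_comm]
    exact h2
  exact absurd h3 (not_le.2 hA3)

theorem exists_coord {v : E d} {t : ℝ} (ht : 0 < t) (h : (d + 1) * t < ‖v‖) :
    ∃ j, t < v j ∨ t < - v j := by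
  by_contra hcon
  push Not at hcon
  have h1 : ‖v‖ ^ 2 ≤ ((d + 1) * t) ^ 2 := by
    rw [EuclideanSpace.real_norm_sq_eq]
    calc ∑ j, v j ^ 2 ≤ ∑ _j : Fin d, t ^ 2 := Finset.sum_le_sum fun j _ =>
          sq_le_sq' (by linarith [(hcon j).2]) (hcon j).1
      _ = d * t ^ 2 := by simp
      _ ≤ ((d + 1) * t) ^ 2 := by
          have h2 : (d : ℝ) ≤ (d + 1) ^ 2 := by nlinarith [Nat.cast_nonneg (α := ℝ) d]
          rw [mul_pow]
          exact mul_le_mul_of_nonneg_right h2 (by positivity)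
  exact absurd ((le_abs_self _).trans (abs_le_of_sq_le_sq h1 (by positivity))) (not_le.2 h)

theorem off_of_form {μ : Measure (E d)} [IsLocallyFiniteMeasure μ] (h : Form n μ) {a : ℝ}
    (ha : 0 < a) : ∃ L : ℝ, OffTest n a L μ := by
  obtain ⟨C, h⟩ := h
  set t : ℝ := 2 * (d + 1) * (|C| + 1) / a with ht
  have ht0 : 0 < t := by positivity
  refine ⟨(d + 1) * t, fun x hx r hr S hS hSB => ?_⟩
  have h1 : ∀ φ : E d →L[ℝ] ℝ, (∀ v, φ v ≤ ‖v‖) →
      μ {y ∈ ball x r \ S | t < φ (field n μ S y)} ≤ ENNReal.ofReal (|C| * r ^ n / t) :=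
    fun φ hφ => level_le (by positivity) ht0 hS (fun A hA hd hAB =>
      (h x hx r hr A S hA hS hd (union_subset hAB hSB)).trans
        (mul_le_mul_of_nonneg_right (le_abs_self C) (by positivity))) φ hφ
  have h2 : {y ∈ ball x r \ S | (d + 1) * t < ‖field n μ S y‖} ⊆ ⋃ j : Fin d,
      ({y ∈ ball x r \ S | t < EuclideanSpace.proj (𝕜 := ℝ) j (field n μ S y)} ∪
        {y ∈ ball x r \ S | t < (- EuclideanSpace.proj (𝕜 := ℝ) j) (field n μ S y)}) := by
    rintro y ⟨hy1, hy2⟩
    obtain ⟨j, hj⟩ := exists_coord ht0 hy2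
    exact mem_iUnion.2 ⟨j, hj.imp (fun h => ⟨hy1, h⟩) fun h => ⟨hy1, h⟩⟩
  have h3 : ∀ (j : Fin d) (v : E d), |v j| ≤ ‖v‖ := fun j v => PiLp.norm_apply_le v j
  refine ENNReal.toReal_le_of_le_ofReal (by positivity)
    ((measure_mono h2).trans ((measure_iUnion_fintype_le _ _).trans ?_))
  refine (Finset.sum_le_card_nsmul _ _ (ENNReal.ofReal (2 * (|C| * r ^ n / t))) fun j _ =>
    (measure_union_le _ _).trans ?_).trans ?_
  · rw [two_mul, ENNReal.ofReal_add (by positivity) (by positivity)]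
    exact add_le_add (h1 _ fun v => (le_abs_self _).trans (h3 j v))
      (h1 _ fun v => (neg_le_abs _).trans (h3 j v))
  · rw [Finset.card_univ, Fintype.card_fin, nsmul_eq_mul, ← ENNReal.ofReal_natCast,
      ← ENNReal.ofReal_mul (by positivity)]
    apply ENNReal.ofReal_le_ofReal
    have h4 : (d : ℝ) * (2 * (|C| * r ^ n / t)) = (2 * d * |C| / t) * r ^ n := by ring
    rw [h4]
    apply mul_le_mul_of_nonneg_right _ (by positivity)
    rw [div_le_iff₀ ht0, ht, mul_div_cancel₀ _ ha.ne']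
    nlinarith [Nat.cast_nonneg (α := ℝ) d, abs_nonneg C]

theorem ur_of_form (hn : 1 ≤ n) (hnd : n ≤ d) {μ : Measure (E d)} [IsLocallyFiniteMeasure μ]
    (hreg : Regular n μ) (h : Form n μ) : UR n μ := by
  obtain ⟨C₀, hreg⟩ := hreg
  have hC₀ : 0 < C₀ := lt_of_lt_of_le one_pos hreg.1
  obtain ⟨a, ha, H⟩ := covered_of_off n d hn hnd C₀
  obtain ⟨L, hL⟩ := off_of_form h ha
  obtain ⟨M, H⟩ := H L (1 / (2 * C₀)) (by positivity)
  exact ur_of_covered hreg (H μ inferInstance hreg hL)

theorem form_of_bounded {μ : Measure (E d)} [IsLocallyFiniteMeasure μ] (hreg : Regular n μ)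
    (h : Bounded n μ) : Form n μ := by
  obtain ⟨C₀, hreg⟩ := hreg
  obtain ⟨C₁, h⟩ := h
  have hsupp : ∀ᵐ y ∂μ, y ∈ μ.support := Measure.support_mem_ae
  by_cases hD : 0 < ediam μ.support
  swap
  · refine ⟨0, fun x hx r hr A S hA hS hd _ => ?_⟩
    have h0 : ediam μ.support = 0 := le_antisymm (not_lt.1 hD) bot_le
    have h1 : μ.support.Subsingleton := ediam_eq_zero_iff.1 h0
    rw [zero_mul, norm_le_zero_iff]
    apply setIntegral_eq_zero_of_ae_eq_zero
    filter_upwards [hsupp] with y hy hyA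
    apply setIntegral_eq_zero_of_ae_eq_zero
    filter_upwards [hsupp] with s hs hsS
    exact absurd hyA (Set.disjoint_right.1 hd (h1 hs hy ▸ hsS))
  obtain ⟨C, hC, hAR⟩ := ar_quant n d C₀ hreg.1
  have har := hAR μ hD hreg.ad.2
  refine ⟨C₁ * C, fun x hx r hr A S hA hS hd hB => ?_⟩
  obtain ⟨e, he, H⟩ := exists_sep hA hS hd
  have hm : ∀ T ⊆ A ∪ S, μ T ^ (1 / 2 : ℝ) ≤ ENNReal.ofReal (C * r ^ n) ^ (1 / 2 : ℝ) :=
    fun T hT => ENNReal.rpow_le_rpow ((measure_mono
      ((hT.trans hB).trans ball_subset_closedBall)).trans (har.upper x r hr)) (by norm_num)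
  set F : E d → E d := fun y => ∫ s in S, tK n e (y - s) ∂μ with hF
  have hFm : AEStronglyMeasurable F μ :=
    aesm_kernel (k := fun z => tK n e (z.1 - z.2))
      ((measurable_tK n e).comp (measurable_fst.sub measurable_snd)) S
  have h1 : ∫ y in A, field n μ S y ∂μ = ∫ y in A, F y ∂μ :=
    setIntegral_congr_fun hA.measurableSet fun y hy => field_eq_tK hS.measurableSet (H y hy)
  have h2 := h _ (memLp_indicator_const 2 hS.measurableSet (1 : ℝ)
    (Or.inr hS.measure_lt_top.ne)) e he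
  rw [funext (R_indicator _ hS.measurableSet)] at h2
  have h3 := eLpNorm_indicator_const_le (μ := μ) (s := S) (c := (1 : ℝ)) 2
  rw [enorm_one, one_mul, ENNReal.toReal_ofNat] at h3
  have h4 := eLpNorm_le_eLpNorm_mul_rpow_measure_univ (μ := μ.restrict A) (p := 1) (q := 2)
    (by norm_num) hFm.restrict
  rw [eLpNorm_one_eq_lintegral_enorm, Measure.restrict_apply_univ, ENNReal.toReal_one,
    ENNReal.toReal_ofNat, show (1 / 1 - 1 / 2 : ℝ) = 1 / 2 by norm_num] at h4
  have h5 : ‖∫ y in A, F y ∂μ‖ₑ ≤ ENNReal.ofReal (C₁ * C * r ^ n) := by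
    refine (enorm_integral_le_lintegral_enorm _).trans (h4.trans ?_)
    refine (mul_le_mul' ((eLpNorm_restrict_le _ _ _ _).trans (h2.trans (mul_le_mul_right
      (h3.trans (hm S subset_union_right)) _))) (hm A subset_union_left)).trans (le_of_eq ?_)
    rw [mul_assoc, ← ENNReal.rpow_add_of_nonneg _ _ (by norm_num) (by norm_num),
      show (1 / 2 + 1 / 2 : ℝ) = 1 by norm_num, ENNReal.rpow_one, mul_assoc,
      ENNReal.ofReal_mul (NNReal.coe_nonneg C₁), ENNReal.ofReal_coe_nnreal]
  rw [h1]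
  rw [← ofReal_norm] at h5
  exact (ENNReal.ofReal_le_ofReal_iff (by positivity)).1 h5

theorem R_eq (μ : Measure (E d)) (e : ℝ) (f : E d → ℝ) (x : E d) :
    R n μ e f x = ∫ y, f y • tK n e (x - y) ∂μ := by
  rw [R, ← integral_indicator measurableSet_closedBall.compl]
  congr 1
  funext y
  by_cases h1 : e < ‖x - y‖
  · have h2 : y ∈ (closedBall x e)ᶜ := by
      rw [mem_compl_iff, mem_closedBall, not_le, dist_comm, dist_eq_norm]; exact h1
    rw [indicator_of_mem h2, K_eq, tK,
      indicator_of_mem (show x - y ∈ {z : Eu d | e < ‖z‖} from h1)]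
  · have h2 : y ∉ (closedBall x e)ᶜ := by
      rw [mem_compl_iff, mem_closedBall, not_le, dist_comm, dist_eq_norm]; exact h1
    rw [indicator_of_notMem h2, tK,
      indicator_of_notMem (show x - y ∉ {z : Eu d | e < ‖z‖} from h1), smul_zero]

theorem operator_of_bounded {μ : Measure (E d)} [IsLocallyFiniteMeasure μ] (h : Bounded n μ) :
    Operator n μ := by
  obtain ⟨C, h⟩ := h
  refine ⟨2, C, fun f => (tsupport f)ᶜ.indicator fun x => ∫ y, f y • K n (x - y) ∂μ,
    by norm_num, fun f hf => ⟨?_, fun S hS hfS => Eventually.of_forall fun x hx => ?_⟩⟩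
  · have hm : MeasurableSet (tsupport f)ᶜ := (isClosed_tsupport f).measurableSet.compl
    have h1 : ∀ e : ℝ, AEStronglyMeasurable (R n μ e f) μ := by
      intro e
      rw [funext (R_eq μ e f)]
      exact AEStronglyMeasurable.integral_prod_right'
        (f := fun z : E d × E d => f z.2 • tK n e (z.1 - z.2)) (hf.1.comp_snd.smul
          ((measurable_tK n e).comp (measurable_fst.sub measurable_snd)).aestronglyMeasurable)
    refine (Lp.eLpNorm_lim_le_liminf_eLpNorm (p := 2)
      (f := fun j : ℕ => (tsupport f)ᶜ.indicator (R n μ (1 / ((j : ℝ) + 1)) f))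
      (fun j => (h1 _).indicator hm) _ (Eventually.of_forall fun x => ?_)).trans ?_
    · by_cases hx : x ∈ (tsupport f)ᶜ
      · simp only [indicator_of_mem hx]
        obtain ⟨δ, hδ, hball⟩ := Metric.isOpen_iff.1 (isClosed_tsupport f).isOpen_compl x hx
        refine tendsto_const_nhds.congr' ?_
        filter_upwards [tendsto_one_div_add_atTop_nhds_zero_nat.eventually (gt_mem_nhds hδ)]
          with j hj
        refine (setIntegral_eq_integral_of_forall_compl_eq_zero fun y hy => ?_).symm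
        rw [image_eq_zero_of_notMem_tsupport (hball (closedBall_subset_ball hj (not_not.1 hy))),
          zero_smul]
      · simp only [indicator_of_notMem hx]
        exact tendsto_const_nhds
    · refine liminf_le_of_frequently_le' (Frequently.of_forall fun j => ?_)
      exact (eLpNorm_indicator_le _).trans (h f hf _ (by positivity))
  · have h1 : tsupport f ⊆ S :=
      closure_minimal (fun y hy => not_not.1 fun h2 => hy (hfS y h2)) hS.isClosed
    show (tsupport f)ᶜ.indicator (fun x => ∫ y, f y • K n (x - y) ∂μ) x = _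
    rw [indicator_of_mem (show x ∈ (tsupport f)ᶜ from fun h2 => hx (h1 h2))]
    refine (setIntegral_eq_integral_of_forall_compl_eq_zero fun y hy => ?_).symm
    rw [hfS y hy, zero_smul]

end Vale.Agent.N120B
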