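import Vale.Agent.P120.H982.Main
import Vale.Agent.N120B.Defs
import Mathlib.MeasureTheory.Function.Floor

/-!
From the fields of compact pieces to the truncated transform of a ball: colour the cubes of a
grid of side `e` in all possible ways.
-/

set_option linter.all false

open MeasureTheory Metric Set Filter Topology
open scoped ENNReal NNReal

namespace Vale.Agent.N120B

open Vale.Agent.P120

variable {d n : ℕ}

theorem K_eq (z : E d) : K n z = rieszKernel n z := by
  rw [K, rieszKernel, one_div]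

/-- the index of the cube of side `e` that contains `y` -/
noncomputable def cell (e : ℝ) (y : E d) : Fin d → ℤ := fun j => ⌊y j / e⌋

theorem measurable_cell (e : ℝ) : Measurable (cell (d := d) e) := by
  refine measurable_pi_lambda _ fun j => ?_
  have h1 : Measurable fun y : E d => y j / e := by fun_prop
  exact h1.floor

/-- the indices of the neighbouring cubes -/
noncomputable def near (e : ℝ) (y : E d) : Finset (Fin d → ℤ) :=
  Fintype.piFinset fun j => Finset.Icc (cell e y j - 1) (cell e y j + 1)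

theorem card_near (e : ℝ) (y : E d) : (near e y).card = 3 ^ d := by
  rw [near, Fintype.card_piFinset]
  have h1 : ∀ j, (Finset.Icc (cell e y j - 1) (cell e y j + 1)).card = 3 := by
    intro j
    rw [Int.card_Icc]
    have : cell e y j + 1 + 1 - (cell e y j - 1) = 3 := by ring
    rw [this]
    rfl
  simp only [h1, Finset.prod_const, Finset.card_univ, Fintype.card_fin]

theorem far_of_notMem {e : ℝ} (he : 0 < e) {y s : E d} (h : cell e s ∉ near e y) :
    e < ‖y - s‖ := by
  rw [near, Fintype.mem_piFinset, not_forall] at h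
  obtain ⟨j, hj⟩ := h
  rw [Finset.mem_Icc, not_and_or, not_le, not_le] at hj
  have h1 : |y j - s j| ≤ ‖y - s‖ := by
    have := PiLp.dist_apply_le y s j
    rwa [Real.dist_eq, dist_eq_norm] at this
  have a1 := Int.floor_le (y j / e)
  have a2 := Int.lt_floor_add_one (y j / e)
  have a3 := Int.floor_le (s j / e)
  have a4 := Int.lt_floor_add_one (s j / e)
  have hy : y j = y j / e * e := by field_simp
  have hs : s j = s j / e * e := by field_simp
  rcases hj with hj | hj
  · have h2 : ⌊s j / e⌋ + 2 ≤ ⌊y j / e⌋ := by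
      have : ⌊s j / e⌋ < ⌊y j / e⌋ - 1 := hj
      omega
    have h3 : ((⌊s j / e⌋ : ℤ) : ℝ) + 2 ≤ (⌊y j / e⌋ : ℤ) := by exact_mod_cast h2
    have h4 : 1 < y j / e - s j / e := by linarith
    have h5 : e < y j - s j := by
      rw [← sub_div, lt_div_iff₀ he] at h4
      linarith
    exact h5.trans_le ((le_abs_self _).trans h1)
  · have h2 : ⌊y j / e⌋ + 2 ≤ ⌊s j / e⌋ := by
      have : ⌊y j / e⌋ + 1 < ⌊s j / e⌋ := hj
      omega
    have h3 : ((⌊y j / e⌋ : ℤ) : ℝ) + 2 ≤ (⌊s j / e⌋ : ℤ) := by exact_mod_cast h2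
    have h4 : 1 < s j / e - y j / e := by linarith
    have h5 : e < s j - y j := by
      rw [← sub_div, lt_div_iff₀ he] at h4
      linarith
    have h6 : s j - y j ≤ |y j - s j| := by
      rw [abs_sub_comm]; exact le_abs_self _
    exact h5.trans_le (h6.trans h1)

theorem close_of_mem {e : ℝ} (he : 0 < e) {y s : E d} (h : cell e s ∈ near e y) :
    dist s y ≤ 2 * (d + 1) * e := by
  rw [near, Fintype.mem_piFinset] at h
  have h1 : ∀ j, dist (s j) (y j) ^ 2 ≤ (2 * e) ^ 2 := by
    intro j
    have hj := Finset.mem_Icc.1 (h j)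
    have a1 := Int.floor_le (y j / e)
    have a2 := Int.lt_floor_add_one (y j / e)
    have a3 := Int.floor_le (s j / e)
    have a4 := Int.lt_floor_add_one (s j / e)
    have b1 : ((⌊y j / e⌋ : ℤ) : ℝ) - 1 ≤ (⌊s j / e⌋ : ℤ) := by exact_mod_cast hj.1
    have b2 : ((⌊s j / e⌋ : ℤ) : ℝ) ≤ (⌊y j / e⌋ : ℤ) + 1 := by exact_mod_cast hj.2
    have c1 : (s j - y j) / e ≤ 2 := by rw [sub_div]; linarith
    have c2 : (y j - s j) / e ≤ 2 := by rw [sub_div]; linarith
    rw [div_le_iff₀ he] at c1 c2
    apply pow_le_pow_left₀ dist_nonneg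
    rw [Real.dist_eq, abs_le]
    constructor <;> linarith
  rw [EuclideanSpace.dist_eq, Real.sqrt_le_left (by positivity)]
  calc ∑ j, dist (s j) (y j) ^ 2 ≤ ∑ _j : Fin d, (2 * e) ^ 2 := Finset.sum_le_sum fun j _ => h1 j
    _ = d * (2 * e) ^ 2 := by simp
    _ ≤ (2 * (d + 1) * e) ^ 2 := by
        have h2 : (d : ℝ) ≤ (d + 1) ^ 2 := by nlinarith [Nat.cast_nonneg (α := ℝ) d]
        calc (d : ℝ) * (2 * e) ^ 2 ≤ (d + 1) ^ 2 * (2 * e) ^ 2 :=
              mul_le_mul_of_nonneg_right h2 (by positivity)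
          _ = _ := by ring

theorem exists_cells {e : ℝ} (he : 0 < e) (x : E d) (r : ℝ) :
    ∃ I : Finset (Fin d → ℤ), ∀ y ∈ ball x r, cell e y ∈ I := by
  refine ⟨Fintype.piFinset fun j => Finset.Icc ⌊(x j - r) / e⌋ ⌊(x j + r) / e⌋, fun y hy => ?_⟩
  rw [Fintype.mem_piFinset]
  intro j
  have h1 : |y j - x j| < r := by
    have := PiLp.dist_apply_le y x j
    rw [Real.dist_eq] at this
    exact this.trans_lt hy
  rw [abs_lt] at h1
  rw [Finset.mem_Icc]
  constructor
  · apply Int.floor_le_floor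
    apply div_le_div_of_nonneg_right _ he.le
    linarith
  · apply Int.floor_le_floor
    apply div_le_div_of_nonneg_right _ he.le
    linarith

/-- a property that holds for a set or its complement in `F` holds for half of the subsets -/
theorem count_half {ι : Type} [DecidableEq ι] (I N : Finset ι) (P : Finset ι → Prop)
    [DecidablePred P] (h : ∀ ω ⊆ I \ N, P ω ∨ P ((I \ N) \ ω)) :
    2 ^ I.card ≤ 2 ^ (N.card + 1) * (I.powerset.filter P).card := by
  set F := I \ N with hF
  have h1 : (F.powerset.filter fun ω => ¬ P ω).card ≤ (F.powerset.filter P).card := by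
    apply Finset.card_le_card_of_injOn (fun ω => F \ ω)
    · intro ω hω
      rw [Finset.coe_filter, mem_ofPred_eq, Finset.mem_powerset] at hω
      rw [Finset.coe_filter, mem_ofPred_eq, Finset.mem_powerset]
      exact ⟨Finset.sdiff_subset, (h ω hω.1).resolve_left hω.2⟩
    · intro ω hω ω' hω' hEq
      rw [Finset.coe_filter, mem_ofPred_eq, Finset.mem_powerset] at hω hω'
      have h2 : F \ (F \ ω) = F \ (F \ ω') := congrArg (fun t => F \ t) hEq
      rwa [Finset.sdiff_sdiff_eq_self hω.1, Finset.sdiff_sdiff_eq_self hω'.1] at h2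
  have h2 := Finset.card_filter_add_card_filter_not (s := F.powerset) P
  rw [Finset.card_powerset] at h2
  have h3 : (F.powerset.filter P).card ≤ (I.powerset.filter P).card :=
    Finset.card_le_card (Finset.filter_subset_filter _
      (Finset.powerset_mono.2 Finset.sdiff_subset))
  have h4 : I.card ≤ N.card + F.card := by
    have : I.card ≤ F.card + N.card := Finset.card_le_card_sdiff_add_card (s := I) (t := N)
    omega
  calc 2 ^ I.card ≤ 2 ^ (N.card + F.card) := Nat.pow_le_pow_right (by norm_num) h4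
    _ = 2 ^ N.card * 2 ^ F.card := pow_add _ _ _
    _ ≤ 2 ^ N.card * (2 * (I.powerset.filter P).card) := Nat.mul_le_mul_left _ (by omega)
    _ = _ := by rw [pow_succ]; ring

open Classical in
/-- a set covered many times -/
theorem many_cover {X ι : Type} [MeasurableSpace X] (μ : Measure X) (J : Finset ι)
    (G : ι → Set X) (A : Set X) (m c : ℕ)
    (h : ∀ y ∈ A, m ≤ c * (J.filter fun i => y ∈ G i).card) :
    (m : ℝ≥0∞) * μ A ≤ c * ∑ i ∈ J, μ (G i) := by
  set f : X → ℝ≥0∞ := fun y => c * ∑ i ∈ J, (toMeasurable μ (G i)).indicator 1 y with hf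
  have hm : ∀ i, Measurable ((toMeasurable μ (G i)).indicator (1 : X → ℝ≥0∞)) := fun i =>
    measurable_one.indicator (measurableSet_toMeasurable μ _)
  have hfm : Measurable f := (Finset.measurable_sum _ fun i _ => hm i).const_mul _
  have h1 : A ⊆ {y | (m : ℝ≥0∞) ≤ f y} := by
    intro y hy
    have h2 : ((J.filter fun i => y ∈ G i).card : ℝ≥0∞) ≤
        ∑ i ∈ J, (toMeasurable μ (G i)).indicator 1 y := by
      rw [Finset.card_filter, Nat.cast_sum]
      refine Finset.sum_le_sum fun i _ => ?_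
      by_cases hi : y ∈ G i
      · rw [if_pos hi, indicator_of_mem (subset_toMeasurable μ _ hi)]
        simp
      · rw [if_neg hi]
        simp
    have h3 : (m : ℝ≥0∞) ≤ c * ((J.filter fun i => y ∈ G i).card : ℝ≥0∞) := by
      exact_mod_cast h y hy
    exact h3.trans (mul_le_mul_right h2 _)
  refine (mul_le_mul_right (measure_mono h1) _).trans
    ((mul_meas_ge_le_lintegral hfm _).trans (le_of_eq ?_))
  rw [hf, lintegral_const_mul _ (Finset.measurable_sum _ fun i _ => hm i),
    lintegral_finset_sum _ fun i _ => hm i]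
  congr 1
  refine Finset.sum_congr rfl fun i _ => ?_
  rw [lintegral_indicator_one (measurableSet_toMeasurable μ _), measure_toMeasurable]

/-- **the truncated transform of a piece of a ball is controlled by the fields of its compact
subsets** -/
theorem trunc_of_off {μ : Measure (E d)} {C : ℝ} (hC : 0 < C)
    (hup : ∀ (x : E d) (r : ℝ), 0 < r → μ (closedBall x r) ≤ ENNReal.ofReal (C * r ^ n))
    {x : E d} {r e L : ℝ} (hr : 0 < r) (he : 0 < e) {b : ℝ≥0∞}
    (hoff : ∀ S : Set (E d), IsCompact S → S ⊆ ball x r →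
      μ {y ∈ ball x r \ S | L < ‖field n μ S y‖} ≤ b) :
    μ {y | y ∈ ball x r ∧ 2 * (L + 1) + C * (2 * (d + 1)) ^ n <
      ‖∫ s in ball x r, tK n e (y - s) ∂μ‖} ≤ (2 ^ (3 ^ d + 1) : ℕ) * b := by
  classical
  have hfin : ∀ (z : E d) (t : ℝ), μ (closedBall z t) < ⊤ := by
    intro z t
    refine (measure_mono (closedBall_subset_closedBall (le_max_left t 1))).trans_lt ?_
    exact (hup z _ (lt_max_of_lt_right one_pos)).trans_lt ENNReal.ofReal_lt_top
  haveI : IsLocallyFiniteMeasure μ :=
    ⟨fun z => ⟨closedBall z 1, closedBall_mem_nhds z one_pos, hfin z 1⟩⟩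
  obtain ⟨I, hI⟩ := exists_cells he x r
  set B := ball x r with hB
  have hBfin : μ B ≠ ⊤ := measure_ball_lt_top.ne
  set S : Finset (Fin d → ℤ) → Set (E d) := fun ω => B ∩ cell e ⁻¹' (ω : Set (Fin d → ℤ)) with hS
  have hSm : ∀ ω, MeasurableSet (S ω) := fun ω =>
    measurableSet_ball.inter (measurable_cell e ω.measurableSet)
  have hSB : ∀ ω, S ω ⊆ B := fun ω => inter_subset_left
  have hen : 0 < e ^ n := by positivity
  have hcomp : ∀ ω, ∃ T, T ⊆ S ω ∧ IsCompact T ∧ μ (S ω \ T) < ENNReal.ofReal (e ^ n) := fun ω =>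
    (hSm ω).exists_isCompact_sdiff_lt (ne_top_of_le_ne_top hBfin (measure_mono (hSB ω)))
      (ENNReal.ofReal_pos.2 hen).ne'
  choose T hTS hTc hTm using hcomp
  set G : Finset (Fin d → ℤ) → Set (E d) := fun ω =>
    {y ∈ ball x r \ T ω | L < ‖field n μ (T ω) y‖} with hG
  have hint : ∀ (y : E d) (A : Set (E d)), A ⊆ B → IntegrableOn (fun s => tK n e (y - s)) A μ :=
    fun y A hA => TT.intOn_kernel (measurable_tK n e) (norm_tK_le n e he)
      (ne_top_of_le_ne_top hBfin (measure_mono hA)) y
  have hcount : ∀ y ∈ {y | y ∈ ball x r ∧ 2 * (L + 1) + C * (2 * (d + 1)) ^ n <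
      ‖∫ s in ball x r, tK n e (y - s) ∂μ‖},
      2 ^ I.card ≤ 2 ^ (3 ^ d + 1) * (I.powerset.filter fun ω => y ∈ G ω).card := by
    rintro y ⟨hyB, hy⟩
    rw [← card_near e y]
    apply count_half
    set F := I \ near e y with hF
    -- the near part
    have hnear : ‖∫ s in B \ S F, tK n e (y - s) ∂μ‖ ≤ C * (2 * (d + 1)) ^ n := by
      have h1 : B \ S F ⊆ closedBall y (2 * (d + 1) * e) := by
        rintro s ⟨hs1, hs2⟩
        apply close_of_mem he
        by_contra hcon
        exact hs2 ⟨hs1, Finset.mem_coe.2 (Finset.mem_sdiff.2 ⟨hI s hs1, hcon⟩)⟩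
      have h2 : μ.real (B \ S F) ≤ C * (2 * (d + 1) * e) ^ n :=
        ENNReal.toReal_le_of_le_ofReal (by positivity)
          ((measure_mono h1).trans (hup y _ (by positivity)))
      refine (norm_setIntegral_le_of_norm_le_const ((measure_mono h1).trans_lt (hfin _ _))
        fun s _ => norm_tK_le n e he _).trans ?_
      refine (mul_le_mul_of_nonneg_left h2 (by positivity)).trans (le_of_eq ?_)
      rw [mul_pow _ e]
      field_simp
    have hfar : 2 * (L + 1) < ‖∫ s in S F, tK n e (y - s) ∂μ‖ := by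
      rw [setIntegral_sdiff (hSm F) (hint y B subset_rfl) (hSB F)] at hnear
      have h1 := norm_add_le (∫ s in B, tK n e (y - s) ∂μ - ∫ s in S F, tK n e (y - s) ∂μ)
        (∫ s in S F, tK n e (y - s) ∂μ)
      rw [sub_add_cancel] at h1
      linarith
    -- a far colouring with a large sum is good
    have hgood : ∀ ω ⊆ F, L + 1 < ‖∫ s in S ω, tK n e (y - s) ∂μ‖ → y ∈ G ω := by
      intro ω hω hbig
      have h1 : ∀ s ∈ S ω, e < ‖y - s‖ := fun s hs =>
        far_of_notMem he (Finset.mem_sdiff.1 (hω (Finset.mem_coe.1 hs.2))).2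
      have h2 : y ∉ T ω := by
        intro hy2
        have := h1 y (hTS ω hy2)
        rw [sub_self, norm_zero] at this
        linarith
      refine ⟨⟨hyB, h2⟩, ?_⟩
      have h3 : field n μ (T ω) y = ∫ s in T ω, tK n e (y - s) ∂μ := by
        refine setIntegral_congr_fun (hTc ω).measurableSet fun s hs => ?_
        show K n (y - s) = tK n e (y - s)
        rw [K_eq, tK, indicator_of_mem (show y - s ∈ {z : Eu d | e < ‖z‖} from h1 s (hTS ω hs))]
      have h4 : ‖∫ s in S ω \ T ω, tK n e (y - s) ∂μ‖ ≤ 1 := by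
        have h5 : μ.real (S ω \ T ω) ≤ e ^ n :=
          ENNReal.toReal_le_of_le_ofReal hen.le (hTm ω).le
        refine (norm_setIntegral_le_of_norm_le_const ((hTm ω).trans ENNReal.ofReal_lt_top)
          fun s _ => norm_tK_le n e he _).trans ?_
        refine (mul_le_mul_of_nonneg_left h5 (by positivity)).trans (le_of_eq ?_)
        field_simp
      rw [setIntegral_sdiff (hTc ω).measurableSet (hint y _ (hSB ω)) (hTS ω)] at h4
      have h5 := norm_add_le (∫ s in S ω, tK n e (y - s) ∂μ - ∫ s in T ω, tK n e (y - s) ∂μ)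
        (∫ s in T ω, tK n e (y - s) ∂μ)
      rw [sub_add_cancel] at h5
      rw [h3]
      linarith
    intro ω hω
    have hsplit : ∫ s in S F, tK n e (y - s) ∂μ =
        ∫ s in S ω, tK n e (y - s) ∂μ + ∫ s in S (F \ ω), tK n e (y - s) ∂μ := by
      rw [← setIntegral_union _ (hSm _) (hint y _ (hSB _)) (hint y _ (hSB _))]
      · congr 2
        ext s
        simp only [hS, mem_inter_iff, mem_preimage, Finset.mem_coe, mem_union, Finset.mem_sdiff]
        constructor
        · rintro ⟨h1, h2⟩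
          by_cases h3 : cell e s ∈ ω
          · exact Or.inl ⟨h1, h3⟩
          · exact Or.inr ⟨h1, h2, h3⟩
        · rintro (⟨h1, h2⟩ | ⟨h1, h2, -⟩)
          · exact ⟨h1, hω h2⟩
          · exact ⟨h1, h2⟩
      · rw [Set.disjoint_left]
        rintro s ⟨-, h1⟩ ⟨-, h2⟩
        exact (Finset.mem_sdiff.1 (Finset.mem_coe.1 h2)).2 (Finset.mem_coe.1 h1)
    rw [hsplit] at hfar
    have h1 := norm_add_le (∫ s in S ω, tK n e (y - s) ∂μ) (∫ s in S (F \ ω), tK n e (y - s) ∂μ)
    by_cases h2 : L + 1 < ‖∫ s in S ω, tK n e (y - s) ∂μ‖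
    · exact Or.inl (hgood ω hω h2)
    · exact Or.inr (hgood _ Finset.sdiff_subset (by linarith [not_lt.1 h2]))
  have h1 := many_cover μ I.powerset G _ _ _ (by
    intro y hy
    convert hcount y hy)
  have h2 : ∑ ω ∈ I.powerset, μ (G ω) ≤ ((2 ^ I.card : ℕ) : ℝ≥0∞) * b := by
    refine (Finset.sum_le_card_nsmul _ _ b fun ω _ =>
      hoff (T ω) (hTc ω) ((hTS ω).trans (hSB ω))).trans (le_of_eq ?_)
    rw [Finset.card_powerset, nsmul_eq_mul]
  have h3 := h1.trans (mul_le_mul_right h2 _)
  rw [mul_left_comm] at h3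
  exact (ENNReal.mul_le_mul_iff_right (by positivity) (ENNReal.natCast_ne_top _)).1 h3

end Vale.Agent.N120B
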