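import Vale.Agent.N120B.Grid

/-!
Uniform rectifiability from bounds on the fields of compact pieces.
-/

set_option linter.all false

open MeasureTheory Metric Set Filter Topology
open scoped ENNReal NNReal

namespace Vale.Agent.N120B

open Vale.Agent.P120

variable {d n : ℕ}

theorem RegularWith.ad {μ : Measure (E d)} [IsLocallyFiniteMeasure μ] {C : ℝ}
    (h : RegularWith n C μ) : ADRegularWith n C μ := by
  have hC : 0 < C := lt_of_lt_of_le one_pos h.1
  refine ⟨h.1, fun x hx r hr hrD => ?_⟩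
  obtain ⟨h1, h2⟩ := h.2 x hx r hr hrD
  constructor
  · rw [ENNReal.ofReal_le_iff_le_toReal measure_ball_lt_top.ne, inv_mul_eq_div]
    exact h1
  · rw [ENNReal.le_ofReal_iff_toReal_le measure_ball_lt_top.ne (by positivity)]
    exact h2

/-- **testing off compact pieces gives very big pieces of Lipschitz images** -/
theorem covered_of_off (n d : ℕ) (hn : 1 ≤ n) (hnd : n ≤ d) (C₀ : ℝ) :
    ∃ a : ℝ, 0 < a ∧ ∀ L η : ℝ, 0 < η → ∃ M : ℝ≥0, ∀ μ : Measure (E d),
      IsLocallyFiniteMeasure μ → RegularWith n C₀ μ → OffTest n a L μ → Covered n M η μ := by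
  by_cases hC₀ : 1 ≤ C₀
  swap
  · exact ⟨1, one_pos, fun L η _ => ⟨1, fun μ _ h1 => absurd h1.1 hC₀⟩⟩
  obtain ⟨C, hC, hAR⟩ := ar_quant n d C₀ hC₀
  obtain ⟨α, hα, H⟩ := very_big_pieces n d hn hnd C₀
  refine ⟨α / (2 ^ (3 ^ d + 1) : ℕ), by positivity, fun L η hη => ?_⟩
  obtain ⟨M, H⟩ := H (2 * (L + 1) + C * (2 * (d + 1)) ^ n) η hη
  refine ⟨M, fun μ hlf hreg hoff x hx r hr hrD => ?_⟩
  have hD : 0 < ediam μ.support := lt_of_lt_of_le (ENNReal.ofReal_pos.2 hr) hrD
  have har := hAR μ hD hreg.ad.2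
  have hW : WeakTesting n α (2 * (L + 1) + C * (2 * (d + 1)) ^ n) μ := by
    intro z hz t ht e he
    simp only [TT.truncRiesz_ind]
    refine (trunc_of_off (b := ENNReal.ofReal (α / (2 ^ (3 ^ d + 1) : ℕ) * t ^ n)) hC har.upper
      ht he fun S hS hSB => ?_).trans (le_of_eq ?_)
    · rw [ENNReal.le_ofReal_iff_toReal_le _ (by positivity)]
      · exact hoff z hz t ht S hS hSB
      · exact ne_top_of_le_ne_top (measure_ball_lt_top (x := z) (r := t)).ne
          (measure_mono fun y hy => hy.1.1)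
    · rw [← ENNReal.ofReal_natCast, ← ENNReal.ofReal_mul (by positivity)]
      congr 1
      field_simp
  obtain ⟨g, hg, hm⟩ := H μ hreg.ad hW x hx r hr hrD
  refine ⟨_, ⟨fun v => g v, fun v w => hg v w, rfl⟩, ?_⟩
  rw [← image_eq_range]
  exact ENNReal.toReal_le_of_le_ofReal (by positivity) hm

theorem ur_of_covered {μ : Measure (E d)} [IsLocallyFiniteMeasure μ] {C : ℝ} {M : ℝ≥0}
    (hreg : RegularWith n C μ) (h : Covered n M (1 / (2 * C)) μ) : UR n μ := by
  have hC : 0 < C := lt_of_lt_of_le one_pos hreg.1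
  refine ⟨1 / (2 * C), by positivity, M, fun x hx r hr hrD => ?_⟩
  obtain ⟨g, hg, hm⟩ := h x hx r hr hrD
  refine ⟨g, hg, ?_⟩
  have h1 := (hreg.2 x hx r hr hrD).1
  have h2 : μ.real (ball x r) ≤ μ.real (ball x r ∩ g) + μ.real (ball x r \ g) := by
    refine le_trans (le_of_eq ?_) (measureReal_union_le _ _)
    rw [inter_union_sdiff]
  have h3 : r ^ n / C = 1 / (2 * C) * r ^ n + 1 / (2 * C) * r ^ n := by
    field_simp; ring
  linarith

/-- the distribution of the fields of compact sets tends to zero, uniformly -/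
def Tight (n : ℕ) (μ : Measure (E d)) : Prop :=
  ∀ a : ℝ, 0 < a → ∃ L : ℝ, ∀ S : Set (E d), IsCompact S →
    μ {y | y ∉ S ∧ L < ‖field n μ S y‖} ≤ ENNReal.ofReal a * μ S

theorem ur_of_tight (hn : 1 ≤ n) (hnd : n ≤ d) {μ : Measure (E d)} [IsLocallyFiniteMeasure μ]
    (hreg : Regular n μ) (h : Tight n μ) : UR n μ := by
  obtain ⟨C₀, hreg⟩ := hreg
  have hC₀ : 0 < C₀ := lt_of_lt_of_le one_pos hreg.1
  by_cases hD : 0 < ediam μ.support
  swap
  · exact ⟨1, one_pos, 1, fun x _ r hr hrD =>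
      absurd (lt_of_lt_of_le (ENNReal.ofReal_pos.2 hr) hrD) hD⟩
  obtain ⟨C, hC, hAR⟩ := ar_quant n d C₀ hreg.1
  have har := hAR μ hD hreg.ad.2
  obtain ⟨a, ha, H⟩ := covered_of_off n d hn hnd C₀
  obtain ⟨L, hL⟩ := h (a / C) (by positivity)
  obtain ⟨M, H⟩ := H L (1 / (2 * C₀)) (by positivity)
  refine ur_of_covered hreg (H μ inferInstance hreg fun x _ r hr S hS hSB => ?_)
  refine ENNReal.toReal_le_of_le_ofReal (by positivity) ?_
  refine (measure_mono fun y hy => ?_).trans ((hL S hS).trans ?_)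
  · exact ⟨hy.1.2, hy.2⟩
  · refine (mul_le_mul_right ((measure_mono (hSB.trans ball_subset_closedBall)).trans
      (har.upper x r hr)) _).trans (le_of_eq ?_)
    rw [← ENNReal.ofReal_mul (by positivity)]
    congr 1
    field_simp

theorem tight_of_weak {μ : Measure (E d)} (h : WeakOff n μ) : Tight n μ := by
  obtain ⟨p, C, hp, h⟩ := h
  intro a ha
  have h1 : Tendsto (fun t : ℝ => C / t ^ p) atTop (𝓝 0) :=
    (tendsto_rpow_atTop hp).const_div_atTop C
  obtain ⟨L, hL1, hL2⟩ := ((h1.eventually (gt_mem_nhds ha)).and (eventually_gt_atTop 0)).exists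
  exact ⟨L, fun S hS => (h S hS L hL2).trans
    (mul_le_mul_left (ENNReal.ofReal_le_ofReal hL1.le) _)⟩

/-- Chebyshev's inequality against the norm of an indicator -/
theorem cheb_fin {X : Type} [MeasurableSpace X] {μ : Measure X} {p : ℝ≥0∞} (hp : p ≠ 0)
    (hp' : p ≠ ⊤) {C : ℝ≥0} {F : X → E d} (hF : AEStronglyMeasurable F μ) {S : Set X}
    (h : eLpNorm F p μ ≤ C * eLpNorm (S.indicator fun _ => (1 : ℝ)) p μ) {t : ℝ} (ht : 0 < t) :
    μ {y | t < ‖F y‖} ≤ ENNReal.ofReal ((C : ℝ) ^ p.toReal / t ^ p.toReal) * μ S := by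
  have hq : 0 < p.toReal := ENNReal.toReal_pos hp hp'
  have h1 := meas_ge_le_mul_pow_eLpNorm_enorm μ hp hp' hF (ε := ENNReal.ofReal t)
    (ENNReal.ofReal_pos.2 ht).ne' (fun h => absurd h ENNReal.ofReal_ne_top)
  have h2 : {y | t < ‖F y‖} ⊆ {y | ENNReal.ofReal t ≤ ‖F y‖ₑ} := by
    intro y hy
    rw [mem_ofPred_eq, ← ofReal_norm]
    exact ENNReal.ofReal_le_ofReal (le_of_lt hy)
  have h3 := eLpNorm_indicator_const_le (μ := μ) (s := S) (c := (1 : ℝ)) p
  rw [enorm_one, one_mul] at h3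
  have h4 : eLpNorm F p μ ^ p.toReal ≤ (C : ℝ≥0∞) ^ p.toReal * μ S := by
    refine (ENNReal.rpow_le_rpow (h.trans (mul_le_mul_right h3 _)) hq.le).trans (le_of_eq ?_)
    rw [ENNReal.mul_rpow_of_nonneg _ _ hq.le, ← ENNReal.rpow_mul, one_div_mul_cancel hq.ne',
      ENNReal.rpow_one]
  refine (measure_mono h2).trans (h1.trans ((mul_le_mul_right h4 _).trans (le_of_eq ?_)))
  rw [← mul_assoc]
  congr 1
  rw [ENNReal.ofReal_div_of_pos (Real.rpow_pos_of_pos ht _),
    ← ENNReal.ofReal_rpow_of_pos ht, ← ENNReal.ofReal_rpow_of_nonneg (NNReal.coe_nonneg C) hq.le,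
    ENNReal.inv_rpow, ENNReal.div_eq_inv_mul]
  congr 2
  exact ENNReal.ofReal_coe_nnreal.symm

theorem cheb {p : ℝ≥0∞} (hp : p ≠ 0) (C : ℝ≥0) {a : ℝ} (ha : 0 < a) : ∃ L : ℝ,
    ∀ (μ : Measure (E d)) (F : E d → E d) (S : Set (E d)), AEStronglyMeasurable F μ →
      eLpNorm F p μ ≤ C * eLpNorm (S.indicator fun _ => (1 : ℝ)) p μ →
      μ {y | L < ‖F y‖} ≤ ENNReal.ofReal a * μ S := by
  by_cases hp' : p = ⊤
  · subst hp'
    refine ⟨C, fun μ F S _ h => ?_⟩
    have h3 := eLpNorm_indicator_const_le (μ := μ) (s := S) (c := (1 : ℝ)) ⊤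
    rw [enorm_one, one_mul, ENNReal.toReal_top, div_zero, ENNReal.rpow_zero] at h3
    have h4 := h.trans (mul_le_mul_right h3 _)
    rw [mul_one, eLpNorm_exponent_top] at h4
    have h5 : μ {y | (C : ℝ) < ‖F y‖} = 0 := by
      have h6 : ∀ᵐ y ∂μ, ‖F y‖ ≤ C := by
        filter_upwards [ae_le_eLpNormEssSup (f := F) (μ := μ)] with y hy
        have h7 := hy.trans h4
        rw [← ofReal_norm, ← ENNReal.ofReal_coe_nnreal] at h7
        exact (ENNReal.ofReal_le_ofReal_iff (NNReal.coe_nonneg C)).1 h7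
      rw [ae_iff] at h6
      simpa only [not_le] using h6
    rw [h5]
    exact bot_le
  · have hq : 0 < p.toReal := ENNReal.toReal_pos hp hp'
    have h1 : Tendsto (fun t : ℝ => (C : ℝ) ^ p.toReal / t ^ p.toReal) atTop (𝓝 0) :=
      (tendsto_rpow_atTop hq).const_div_atTop _
    obtain ⟨L, hL1, hL2⟩ := ((h1.eventually (gt_mem_nhds ha)).and (eventually_gt_atTop 0)).exists
    exact ⟨L, fun μ F S hF h => (cheb_fin hp hp' hF h hL2).trans
      (mul_le_mul_left (ENNReal.ofReal_le_ofReal hL1.le) _)⟩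

theorem measurable_K : Measurable (K (V := E d) n) := by
  have : K (V := E d) n = rieszKernel n := funext K_eq
  rw [this]
  exact measurable_rieszKernel n

theorem measurable_field (μ : Measure (E d)) [SFinite μ] (S : Set (E d)) :
    Measurable (field n μ S) :=
  ((measurable_K.comp (measurable_fst.sub measurable_snd)).stronglyMeasurable.integral_prod_right'
    (ν := μ.restrict S)).measurable

theorem tight_of_operator {μ : Measure (E d)} [IsLocallyFiniteMeasure μ] (h : Operator n μ) :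
    Tight n μ := by
  obtain ⟨p, C, T, hp, h⟩ := h
  intro a ha
  have hp0 : p ≠ 0 := (lt_of_lt_of_le one_pos hp).ne'
  obtain ⟨L, hL⟩ := cheb (d := d) hp0 C ha
  refine ⟨L, fun S hS => ?_⟩
  obtain ⟨h1, h2⟩ := h _ (memLp_indicator_const p hS.measurableSet (1 : ℝ)
    (Or.inr hS.measure_lt_top.ne))
  have h3 : eLpNorm (Sᶜ.indicator (field n μ S)) p μ ≤
      eLpNorm (T (S.indicator fun _ => (1 : ℝ))) p μ := by
    apply eLpNorm_mono_ae
    filter_upwards [h2 S hS fun y hy => indicator_of_notMem hy _] with y hy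
    by_cases hyS : y ∈ S
    · rw [indicator_of_notMem (show y ∉ Sᶜ from fun h => h hyS), norm_zero]
      exact norm_nonneg _
    · rw [indicator_of_mem (show y ∈ Sᶜ from hyS), hy hyS]
      apply le_of_eq
      congr 1
      refine setIntegral_congr_fun hS.measurableSet fun s hs => ?_
      show K n (y - s) = S.indicator (fun _ => (1 : ℝ)) s • K n (y - s)
      rw [indicator_of_mem hs, one_smul]
  refine le_trans (measure_mono ?_) (hL μ _ S ((measurable_field μ S).indicator
    hS.measurableSet.compl).aestronglyMeasurable (h3.trans h1))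
  rintro y ⟨hy1, hy2⟩
  show L < ‖Sᶜ.indicator (field n μ S) y‖
  rwa [indicator_of_mem (show y ∈ Sᶜ from hy1)]

/-- a bound in measure passes to the limit -/
theorem measure_limit_le {X : Type} [MeasurableSpace X] {μ : Measure X} {F : ℕ → X → E d}
    {G : X → E d} {A : Set X} (h : ∀ y ∈ A, Tendsto (fun j => F j y) atTop (𝓝 (G y))) {t : ℝ}
    {b : ℝ≥0∞} (hb : ∀ j, μ {y | t < ‖F j y‖} ≤ b) : μ {y | y ∈ A ∧ t < ‖G y‖} ≤ b := by
  have h1 : {y | y ∈ A ∧ t < ‖G y‖} ⊆ ⋃ N : ℕ, {y | ∀ j, N ≤ j → t < ‖F j y‖} := by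
    rintro y ⟨hy1, hy2⟩
    obtain ⟨N, hN⟩ := eventually_atTop.1 ((h y hy1).norm.eventually (lt_mem_nhds hy2))
    exact mem_iUnion.2 ⟨N, hN⟩
  refine (measure_mono h1).trans ?_
  have h2 : Monotone fun N : ℕ => {y | ∀ j, N ≤ j → t < ‖F j y‖} :=
    fun N N' hN y hy j hj => hy j (hN.trans hj)
  rw [h2.measure_iUnion]
  refine iSup_le fun N => le_trans (measure_mono ?_) (hb N)
  exact fun y hy => hy N le_rfl

theorem tendsto_field {μ : Measure (E d)} [IsLocallyFiniteMeasure μ] {k : ℕ → E d → E d}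
    (hk : ∀ j, Measurable (k j) ∧ ∃ B : ℝ, ∀ z, ‖k j z‖ ≤ B) {x : E d} {S : Set (E d)}
    (hS : IsCompact S) (h : TendstoUniformlyOn k (fun y => K n (x - y)) atTop S) :
    Tendsto (fun j => ∫ y in S, k j y ∂μ) atTop (𝓝 (field n μ S x)) := by
  have hint : ∀ j, IntegrableOn (k j) S μ := by
    intro j
    obtain ⟨B, hB⟩ := (hk j).2
    exact Integrable.mono' (g := fun _ => B) (integrableOn_const hS.measure_lt_top.ne)
      (hk j).1.aestronglyMeasurable (Eventually.of_forall hB)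
  rw [Metric.tendstoUniformlyOn_iff] at h
  have hK : IntegrableOn (fun y => K n (x - y)) S μ := by
    obtain ⟨j, hj⟩ := (h 1 one_pos).exists
    obtain ⟨B, hB⟩ := (hk j).2
    refine Integrable.mono' (g := fun _ => 1 + B) (integrableOn_const hS.measure_lt_top.ne)
      (measurable_K.comp (measurable_const.sub measurable_id)).aestronglyMeasurable ?_
    filter_upwards [ae_restrict_mem hS.measurableSet] with y hy
    have h1 := hj y hy
    rw [dist_eq_norm] at h1
    have h2 := norm_sub_norm_le (K n (x - y)) (k j y)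
    linarith [hB y]
  rw [Metric.tendsto_nhds]
  intro ε hε
  have hm : 0 < μ.real S + 1 := by positivity
  filter_upwards [h (ε / (μ.real S + 1)) (by positivity)] with j hj
  rw [dist_comm, dist_eq_norm, field, ← integral_sub hK (hint j)]
  refine (norm_setIntegral_le_of_norm_le_const (C := ε / (μ.real S + 1)) hS.measure_lt_top
    fun y hy => ?_).trans_lt ?_
  · rw [← dist_eq_norm]
    exact (hj y hy).le
  · rw [div_mul_eq_mul_div, div_lt_iff₀ hm]
    nlinarith

theorem aesm_kernel {μ : Measure (E d)} [IsLocallyFiniteMeasure μ] {k : E d × E d → E d}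
    (hk : Measurable k) (S : Set (E d)) :
    AEStronglyMeasurable (fun x => ∫ y in S, k (x, y) ∂μ) μ :=
  (hk.stronglyMeasurable.integral_prod_right' (ν := μ.restrict S)).aestronglyMeasurable

theorem limit_of_kernels {μ : Measure (E d)} [IsLocallyFiniteMeasure μ]
    {k : ℕ → E d × E d → E d} (hk : ∀ j, Measurable (k j) ∧ ∃ B : ℝ, ∀ z, ‖k j z‖ ≤ B)
    (hlim : ∀ x, TendstoLocallyUniformlyOn (fun j y => k j (x, y)) (fun y => K n (x - y)) atTop
      {x}ᶜ) {S : Set (E d)} (hS : IsCompact S) {t : ℝ} {b : ℝ≥0∞}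
    (hb : ∀ j, μ {x | t < ‖∫ y in S, k j (x, y) ∂μ‖} ≤ b) :
    μ {y | y ∉ S ∧ t < ‖field n μ S y‖} ≤ b := by
  refine measure_limit_le (A := Sᶜ) (F := fun j x => ∫ y in S, k j (x, y) ∂μ) (fun x hx => ?_) hb
  refine tendsto_field (k := fun j y => k j (x, y)) (fun j => ⟨(hk j).1.comp measurable_prodMk_left,
    (hk j).2.imp fun B hB z => hB _⟩) hS ?_
  refine (tendstoLocallyUniformlyOn_iff_tendstoUniformlyOn_of_compact hS).1 ((hlim x).mono ?_)
  intro y hy hyx
  exact hx (mem_singleton_iff.1 hyx ▸ hy)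

theorem tight_of_approx {μ : Measure (E d)} [IsLocallyFiniteMeasure μ] (h : Approx n μ) :
    Tight n μ := by
  obtain ⟨p, C, k, hp, hk, hlim, h⟩ := h
  intro a ha
  obtain ⟨L, hL⟩ := cheb (d := d) hp C ha
  exact ⟨L, fun S hS => limit_of_kernels hk hlim hS fun j =>
    hL μ _ S (aesm_kernel (hk j).1 S) (h j S hS)⟩

theorem R_indicator {μ : Measure (E d)} (e : ℝ) {S : Set (E d)} (hS : MeasurableSet S) (x : E d) :
    R n μ e (S.indicator fun _ => (1 : ℝ)) x = ∫ y in S, tK n e (x - y) ∂μ := by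
  rw [R, ← integral_indicator measurableSet_closedBall.compl, ← integral_indicator hS]
  congr 1
  funext y
  by_cases h1 : e < ‖x - y‖
  · have h2 : y ∈ (closedBall x e)ᶜ := by
      rw [mem_compl_iff, mem_closedBall, not_le, dist_comm, dist_eq_norm]; exact h1
    rw [indicator_of_mem h2]
    by_cases h3 : y ∈ S
    · rw [indicator_of_mem h3, indicator_of_mem h3, one_smul, K_eq, tK,
        indicator_of_mem (show x - y ∈ {z : Eu d | e < ‖z‖} from h1)]
    · rw [indicator_of_notMem h3, indicator_of_notMem h3, zero_smul]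
  · have h2 : y ∉ (closedBall x e)ᶜ := by
      rw [mem_compl_iff, mem_closedBall, not_le, dist_comm, dist_eq_norm]; exact h1
    rw [indicator_of_notMem h2]
    by_cases h3 : y ∈ S
    · rw [indicator_of_mem h3, tK, indicator_of_notMem (show x - y ∉ {z : Eu d | e < ‖z‖} from h1)]
    · rw [indicator_of_notMem h3]

theorem trunc_kernels (n d : ℕ) :
    (∀ j : ℕ, Measurable (fun z : E d × E d => tK n (1 / ((j : ℝ) + 1)) (z.1 - z.2)) ∧
      ∃ B : ℝ, ∀ z : E d × E d, ‖tK n (1 / ((j : ℝ) + 1)) (z.1 - z.2)‖ ≤ B) ∧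
    ∀ x : E d, TendstoLocallyUniformlyOn (fun (j : ℕ) y => tK n (1 / ((j : ℝ) + 1)) (x - y))
      (fun y => K n (x - y)) atTop {x}ᶜ := by
  refine ⟨fun j => ⟨(measurable_tK n _).comp (measurable_fst.sub measurable_snd),
    _, fun z => norm_tK_le n _ (by positivity) _⟩, fun x => ?_⟩
  intro u hu y hy
  have hxy : 0 < dist y x := dist_pos.2 hy
  refine ⟨ball y (dist y x / 2), mem_nhdsWithin_of_mem_nhds (ball_mem_nhds y (by positivity)), ?_⟩
  have h1 : ∀ᶠ j : ℕ in atTop, 1 / ((j : ℝ) + 1) < dist y x / 2 :=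
    tendsto_one_div_add_atTop_nhds_zero_nat.eventually (gt_mem_nhds (by positivity))
  filter_upwards [h1] with j hj s hs
  have h2 : 1 / ((j : ℝ) + 1) < ‖x - s‖ := by
    have h3 := dist_triangle y s x
    rw [mem_ball, dist_comm] at hs
    rw [← dist_eq_norm, dist_comm x s]
    linarith
  rw [tK, indicator_of_mem (show x - s ∈ {z : Eu d | 1 / ((j : ℝ) + 1) < ‖z‖} from h2), K_eq]
  exact refl_mem_uniformity hu

theorem approx_of_bounded {μ : Measure (E d)} [IsLocallyFiniteMeasure μ] (h : Bounded n μ) :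
    WeakOff n μ ∧ Approx n μ := by
  obtain ⟨C, h⟩ := h
  obtain ⟨h1, h2⟩ := trunc_kernels n d
  have h3 : ∀ (j : ℕ) (S : Set (E d)), IsCompact S →
      eLpNorm (fun x => ∫ y in S, tK n (1 / ((j : ℝ) + 1)) (x - y) ∂μ) 2 μ ≤
        C * eLpNorm (S.indicator fun _ => (1 : ℝ)) 2 μ := by
    intro j S hS
    have h4 := h _ (memLp_indicator_const 2 hS.measurableSet (1 : ℝ)
      (Or.inr hS.measure_lt_top.ne)) (1 / ((j : ℝ) + 1)) (by positivity)
    rwa [funext (R_indicator _ hS.measurableSet)] at h4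
  refine ⟨⟨(2 : ℝ≥0∞).toReal, (C : ℝ) ^ (2 : ℝ≥0∞).toReal, by norm_num, fun S hS t ht => ?_⟩,
    2, C, fun j z => tK n (1 / ((j : ℝ) + 1)) (z.1 - z.2), by norm_num, h1, h2, h3⟩
  exact limit_of_kernels h1 h2 hS fun j =>
    cheb_fin (by norm_num) (by norm_num) (aesm_kernel (h1 j).1 S) (h3 j S hS) ht

/-- the integrals defining the truncated transform converge -/
theorem converges (hn : 1 ≤ n) {μ : Measure (E d)} [IsLocallyFiniteMeasure μ]
    (hreg : Regular n μ) : Converges n μ := by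
  obtain ⟨C₀, hreg⟩ := hreg
  intro f hf ε hε x
  have hKm : Measurable fun y => K n (x - y) :=
    measurable_K.comp (measurable_const.sub measurable_id)
  have hbd : ∀ z : E d, ‖K n z‖ ≤ (‖z‖ ^ n)⁻¹ := by
    intro z
    rw [K_eq, ← rK_zero_eq]
    exact norm_rK_le n 0 z
  have hK : MemLp (fun y => K n (x - y)) 2 (μ.restrict (closedBall x ε)ᶜ) := by
    by_cases hD : 0 < ediam μ.support
    · obtain ⟨C, hC, hAR⟩ := ar_quant n d C₀ hreg.1
      have har := hAR μ hD hreg.ad.2
      obtain ⟨C', -, hfar⟩ := lintegral_far n n hn C hC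
      refine ⟨hKm.aestronglyMeasurable, ?_⟩
      rw [eLpNorm_lt_top_iff_lintegral_rpow_enorm_lt_top (by norm_num) (by norm_num)]
      refine lt_of_le_of_lt ?_ ((hfar d μ har.upper x ε hε).trans_lt ENNReal.ofReal_lt_top)
      refine lintegral_mono' (Measure.restrict_mono (fun y hy => ?_) le_rfl) fun y => ?_
      · exact (not_le.1 (show ¬ dist y x ≤ ε from hy)).le
      · simp only [ENNReal.toReal_ofNat, ENNReal.rpow_ofNat]
        rw [← ofReal_norm, ← ENNReal.ofReal_pow (norm_nonneg _)]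
        apply ENNReal.ofReal_le_ofReal
        rw [pow_add, mul_inv, ← pow_two]
        exact pow_le_pow_left₀ (norm_nonneg _) (hbd _) 2
    · have h0 : ediam μ.support = 0 := le_antisymm (not_lt.1 hD) bot_le
      have h1 : μ.support.Subsingleton := ediam_eq_zero_iff.1 h0
      have h2 : μ univ < ⊤ := by
        rw [← union_compl_self μ.support]
        refine (measure_union_le _ _).trans_lt ?_
        rw [Measure.measure_compl_support, add_zero]
        exact h1.finite.isCompact.measure_lt_top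
      haveI : IsFiniteMeasure μ := ⟨h2⟩
      refine MemLp.of_bound hKm.aestronglyMeasurable (ε ^ n)⁻¹ ?_
      filter_upwards [ae_restrict_mem measurableSet_closedBall.compl] with y hy
      refine (hbd _).trans (inv_anti₀ (by positivity) (pow_le_pow_left₀ hε.le ?_ n))
      rw [← dist_eq_norm, dist_comm]
      exact (not_le.1 (show ¬ dist y x ≤ ε from hy)).le
  exact memLp_one_iff_integrable.1 (MemLp.smul hK (hf.restrict _))

end Vale.Agent.N120B
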